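import Mathlib

/-!
# P131: Burnside's theorem for finite-dimensional complex spaces
-/

namespace Vale.Agent.P131

/-- An irreducible algebra of endomorphisms of a finite-dimensional complex space is everything. -/
theorem burnside {K : Type*} [AddCommGroup K] [Module ℂ K] [FiniteDimensional ℂ K]
    (S : Subalgebra ℂ (Module.End ℂ K))
    (hirr : ∀ W : Submodule ℂ K, (∀ f ∈ S, ∀ w ∈ W, f w ∈ W) → W = ⊥ ∨ W = ⊤) :
    S = ⊤ := by
  classical
  rcases subsingleton_or_nontrivial K with hK | hK
  · refine Algebra.eq_top_iff.2 fun f => ?_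
    rw [show f = 0 from LinearMap.ext fun x => Subsingleton.elim _ _]
    exact S.zero_mem
  have hsimple : IsSimpleModule S K := by
    refine isSimpleModule_iff_toSpanSingleton_surjective.2 ⟨hK, fun v hv w => ?_⟩
    let W : Submodule ℂ K :=
      { carrier := {x | ∃ f : S, (f : Module.End ℂ K) v = x}
        add_mem' := by rintro _ _ ⟨f, rfl⟩ ⟨g, rfl⟩; exact ⟨f + g, rfl⟩
        zero_mem' := ⟨0, rfl⟩
        smul_mem' := by rintro c _ ⟨f, rfl⟩; exact ⟨c • f, rfl⟩ }
    rcases hirr W (fun f hf x hx => by
        obtain ⟨g, rfl⟩ := hx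
        exact ⟨⟨f, hf⟩ * g, rfl⟩) with h | h
    · exact absurd ((Submodule.mem_bot ℂ).1 (h ▸ (⟨1, rfl⟩ : v ∈ W))) hv
    · obtain ⟨f, hf⟩ : w ∈ W := h ▸ Submodule.mem_top
      exact ⟨f, hf⟩
  have : IsSimpleModule S K := hsimple
  have hschur : ∀ g : Module.End S K, ∃ c : ℂ, ∀ x, g x = c • x := by
    intro g
    let gl : Module.End ℂ K :=
      { toFun := g, map_add' := g.map_add,
        map_smul' := fun c x => by
          have h := g.map_smul (algebraMap ℂ S c) x
          exact h }
    obtain ⟨c, hc⟩ := Module.End.exists_eigenvalue gl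
    obtain ⟨v, hv⟩ := hc.exists_hasEigenvector
    refine ⟨c, ?_⟩
    have hW : ∀ f ∈ S, ∀ x ∈ gl.eigenspace c, f x ∈ gl.eigenspace c := by
      intro f hf x hx
      rw [Module.End.mem_eigenspace_iff] at hx ⊢
      show g (f x) = c • f x
      have h := g.map_smul (⟨f, hf⟩ : S) x
      rw [show g (f x) = f (g x) from h, show g x = c • x from hx, map_smul]
    rcases hirr _ hW with h | h
    · exact absurd h hc
    · intro x
      have : x ∈ gl.eigenspace c := h ▸ Submodule.mem_top
      exact Module.End.mem_eigenspace_iff.1 this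
  refine Algebra.eq_top_iff.2 fun f => ?_
  let F : Module.End (Module.End S K) K :=
    { toFun := f, map_add' := f.map_add,
      map_smul' := fun g x => by
        obtain ⟨c, hc⟩ := hschur g
        show f (g x) = g (f x)
        rw [hc, hc, map_smul] }
  let b := Module.finBasis ℂ K
  obtain ⟨r, hr⟩ := jacobson_density F (Finset.univ.image b)
  have : f = (r : Module.End ℂ K) := b.ext fun i => hr (b i) (Finset.mem_image_of_mem _ (Finset.mem_univ i))
  rw [this]
  exact r.2

end Vale.Agent.P131
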