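import Vale.Agent.P131.Burnside

/-!
# P131: operators of degree one for a grading by finite-dimensional pieces
-/

namespace Vale.Agent.P131

open scoped InnerProductSpace

variable {H : Type*} [NormedAddCommGroup H] [InnerProductSpace ℂ H] [CompleteSpace H]

/-- A closed subspace, neither zero nor everything, invariant under the commutant of `T`. -/
def HasHyperinvariantSubspace (T : H →L[ℂ] H) : Prop :=
  ∃ M : Submodule ℂ H, IsClosed (M : Set H) ∧ M ≠ ⊥ ∧ M ≠ ⊤ ∧
    ∀ X : H →L[ℂ] H, X * T = T * X → ∀ x ∈ M, X x ∈ M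

/-- The data of a grading by finite-dimensional pieces, raised by `T`. -/
structure Grading (T : H →L[ℂ] H) where
  E : ℤ → Submodule ℂ H
  finite : ∀ n, FiniteDimensional ℂ (E n)
  orth : ∀ i j, i ≠ j → ∀ x ∈ E i, ∀ y ∈ E j, ⟪x, y⟫_ℂ = 0
  dense : (⨆ n, E n).topologicalClosure = ⊤
  degree : ∀ n, ∀ x ∈ E n, T x ∈ E (n + 1)

namespace Grading

variable {T : H →L[ℂ] H} (G : Grading T)

instance (n : ℤ) : FiniteDimensional ℂ (G.E n) := G.finite n

/-- The projection onto a piece. -/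
noncomputable def P (n : ℤ) : H →L[ℂ] H := (G.E n).starProjection

theorem P_mem (n : ℤ) (x : H) : G.P n x ∈ G.E n := (G.E n).starProjection_apply_mem x

theorem P_self {n : ℤ} {x : H} (hx : x ∈ G.E n) : G.P n x = x :=
  Submodule.starProjection_eq_self_iff.2 hx

theorem P_ne {i j : ℤ} (h : i ≠ j) {x : H} (hx : x ∈ G.E i) : G.P j x = 0 := by
  refine ((G.E j).starProjection_apply_eq_zero_iff).2 ((Submodule.mem_orthogonal _ _).2 fun y hy => ?_)
  exact G.orth j i h.symm y hy x hx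

theorem eq_of_eq_on_pieces {F : Type*} [NormedAddCommGroup F] [Module ℂ F]
    {A B : H →L[ℂ] F} (h : ∀ n, ∀ x ∈ G.E n, A x = B x) : A = B := by
  let K : Submodule ℂ H :=
    { carrier := {x | A x = B x}
      add_mem' := fun {x y} (hx : A x = B x) (hy : A y = B y) => by simp [hx, hy]
      zero_mem' := by simp
      smul_mem' := fun c x (hx : A x = B x) => by simp [hx] }
  have hK : IsClosed (K : Set H) := isClosed_eq A.continuous B.continuous
  have h1 : (⨆ n, G.E n).topologicalClosure ≤ K :=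
    Submodule.topologicalClosure_minimal _ (iSup_le fun n x hx => h n x hx) hK
  rw [G.dense] at h1
  exact ContinuousLinearMap.ext fun x => h1 (Submodule.mem_top (x := x))

theorem P_comm (n : ℤ) (y : H) : G.P (n + 1) (T y) = T (G.P n y) := by
  have h : (G.P (n + 1)).comp T = T.comp (G.P n) := by
    refine G.eq_of_eq_on_pieces fun i x hx => ?_
    show G.P (n + 1) (T x) = T (G.P n x)
    by_cases hi : i = n
    · subst hi; rw [G.P_self (G.degree i x hx), G.P_self hx]
    · rw [G.P_ne (by omega) (G.degree i x hx), G.P_ne hi hx, map_zero]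
  exact congrArg (fun A : H →L[ℂ] H => A y) h

/-- A uniformly bounded family of maps of degree `k` between the pieces that commutes with `T`. -/
def IsFamily (k : ℤ) (C : ℤ → H →L[ℂ] H) : Prop :=
  (∀ n, ∀ x ∈ G.E n, C n x ∈ G.E (n + k)) ∧ (∀ n, ∀ x ∈ G.E n, C (n + 1) (T x) = T (C n x)) ∧
    ∃ M : ℝ, ∀ n, ‖C n‖ ≤ M

/-- The components of an element of the commutant. -/
theorem family_of_commute {X : H →L[ℂ] H} (hX : X * T = T * X) (k : ℤ) :
    G.IsFamily k fun n => (G.P (n + k)).comp X := by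
  refine ⟨fun n x _ => G.P_mem _ _, fun n x _ => ?_, ‖X‖, fun n => ?_⟩
  · show G.P (n + 1 + k) (X (T x)) = T (G.P (n + k) (X x))
    rw [show X (T x) = T (X x) from congrArg (fun A : H →L[ℂ] H => A x) hX,
      show n + 1 + k = n + k + 1 by ring, G.P_comm]
  · refine (ContinuousLinearMap.opNorm_comp_le _ _).trans ?_
    exact mul_le_of_le_one_left (norm_nonneg _) ((G.E _).starProjection_norm_le)

theorem isFamily_mul {k l m : ℤ} (hm : k + l = m) {C D : ℤ → H →L[ℂ] H} (hC : G.IsFamily k C)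
    (hD : G.IsFamily l D) : G.IsFamily m fun n => (C (n + l)).comp (D n) := by
  obtain ⟨hC1, hC2, M, hM⟩ := hC
  obtain ⟨hD1, hD2, N, hN⟩ := hD
  refine ⟨fun n x hx => ?_, fun n x hx => ?_, M * N, fun n => ?_⟩
  · have := hC1 _ _ (hD1 n x hx)
    rwa [show n + l + k = n + m by omega] at this
  · show C (n + 1 + l) (D (n + 1) (T x)) = T (C (n + l) (D n x))
    rw [hD2 n x hx, show n + 1 + l = n + l + 1 by ring, hC2 _ _ (hD1 n x hx)]
  · exact (ContinuousLinearMap.opNorm_comp_le _ _).trans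
      (mul_le_mul (hM _) (hN _) (norm_nonneg _) ((norm_nonneg _).trans (hM n)))

theorem isFamily_add {k : ℤ} {C D : ℤ → H →L[ℂ] H} (hC : G.IsFamily k C) (hD : G.IsFamily k D) :
    G.IsFamily k fun n => C n + D n := by
  obtain ⟨hC1, hC2, M, hM⟩ := hC
  obtain ⟨hD1, hD2, N, hN⟩ := hD
  refine ⟨fun n x hx => (G.E _).add_mem (hC1 n x hx) (hD1 n x hx), fun n x hx => ?_, M + N,
    fun n => (norm_add_le _ _).trans (add_le_add (hM n) (hN n))⟩
  simp [hC2 n x hx, hD2 n x hx]

theorem isFamily_smul {k : ℤ} {C : ℤ → H →L[ℂ] H} (c : ℂ) (hC : G.IsFamily k C) :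
    G.IsFamily k fun n => c • C n := by
  obtain ⟨hC1, hC2, M, hM⟩ := hC
  refine ⟨fun n x hx => (G.E _).smul_mem c (hC1 n x hx), fun n x hx => ?_, ‖c‖ * M,
    fun n => (norm_smul c (C n)).trans_le (mul_le_mul_of_nonneg_left (hM n) (norm_nonneg c))⟩
  simp [hC2 n x hx]

theorem isFamily_zero (k : ℤ) : G.IsFamily k fun _ => 0 :=
  ⟨fun n x _ => (G.E _).zero_mem, fun n x _ => by simp, 0, fun n => by simp⟩

theorem isFamily_one : G.IsFamily 0 fun _ => 1 :=
  ⟨fun n x hx => by simpa using hx, fun n x _ => by simp, ‖(1 : H →L[ℂ] H)‖, fun n => le_rfl⟩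

/-- The degree-zero families at level zero. -/
def degZero : Subalgebra ℂ (Module.End ℂ (G.E 0)) where
  carrier := {f | ∃ C, G.IsFamily 0 C ∧ ∀ x : G.E 0, C 0 x = (f x : H)}
  mul_mem' := by
    rintro f g ⟨C, hC, hCf⟩ ⟨D, hD, hDg⟩
    refine ⟨_, G.isFamily_mul (zero_add 0) hC hD, fun x => ?_⟩
    show C (0 + 0) (D 0 x) = _
    rw [hDg, zero_add, hCf]
    rfl
  one_mem' := ⟨fun _ => 1, G.isFamily_one, fun x => rfl⟩
  add_mem' := by
    rintro f g ⟨C, hC, hCf⟩ ⟨D, hD, hDg⟩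
    exact ⟨_, G.isFamily_add hC hD, fun x => by simp [hCf, hDg]⟩
  zero_mem' := ⟨_, G.isFamily_zero 0, fun x => by simp⟩
  algebraMap_mem' := fun c =>
    ⟨_, G.isFamily_smul c G.isFamily_one, fun x => by simp [Algebra.algebraMap_eq_smul_one]⟩

variable (htr : ¬ HasHyperinvariantSubspace T)

include htr

theorem orbit_dense {x : H} (hx : x ≠ 0) (A : H →L[ℂ] H)
    (h : ∀ X : H →L[ℂ] H, X * T = T * X → A (X x) = 0) : A = 0 := by
  let S : Submodule ℂ H :=
    { carrier := {y | ∃ X : H →L[ℂ] H, X * T = T * X ∧ X x = y}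
      add_mem' := by
        rintro _ _ ⟨X, hX, rfl⟩ ⟨Y, hY, rfl⟩
        exact ⟨X + Y, by rw [add_mul, mul_add, hX, hY], rfl⟩
      zero_mem' := ⟨0, by simp, rfl⟩
      smul_mem' := by
        rintro c _ ⟨X, hX, rfl⟩
        exact ⟨c • X, by rw [smul_mul_assoc, mul_smul_comm, hX], rfl⟩ }
  have htop : S.topologicalClosure = ⊤ := by
    by_contra hne
    refine htr ⟨S.topologicalClosure, S.isClosed_topologicalClosure, ?_, hne, fun X hX z hz => ?_⟩
    · intro hbot
      exact hx ((Submodule.mem_bot ℂ).1 (hbot ▸ S.le_topologicalClosure ⟨1, by simp, rfl⟩))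
    · refine map_mem_closure X.continuous hz ?_
      rintro _ ⟨Y, hY, rfl⟩
      refine ⟨X * Y, ?_, rfl⟩
      rw [mul_assoc, hY, ← mul_assoc, hX, mul_assoc]
  refine ContinuousLinearMap.ext fun y => ?_
  have hle : S.topologicalClosure ≤ A.ker :=
    Submodule.topologicalClosure_minimal _ (by rintro _ ⟨X, hX, rfl⟩; exact h X hX) A.isClosed_ker
  rw [htop] at hle
  exact hle (Submodule.mem_top (x := y))

theorem degZero_eq_top : G.degZero = ⊤ := by
  refine burnside _ fun W hW => ?_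
  by_contra hcon
  push Not at hcon
  obtain ⟨hb, ht⟩ := hcon
  obtain ⟨w, hw, hw0⟩ := Submodule.exists_mem_ne_zero_of_ne_bot hb
  let V : Submodule ℂ H := W.map (G.E 0).subtype
  have hA : Vᗮ.starProjection.comp (G.P 0) = 0 := by
    refine orbit_dense htr (x := (w : H)) (fun h => hw0 (Subtype.ext h)) _ fun X hX => ?_
    refine (Vᗮ.starProjection_apply_eq_zero_iff).2 ?_
    rw [Submodule.orthogonal_orthogonal]
    let f : Module.End ℂ (G.E 0) :=
      LinearMap.codRestrict _ ((((G.P 0).comp X : H →L[ℂ] H) : H →ₗ[ℂ] H).comp (G.E 0).subtype)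
        fun x => G.P_mem 0 _
    have hf : f ∈ G.degZero :=
      ⟨_, G.family_of_commute hX 0, fun x => by simp [f]⟩
    exact ⟨f w, hW f hf w hw, rfl⟩
  refine ht ((Submodule.eq_top_iff').2 fun v => ?_)
  have hv : Vᗮ.starProjection (v : H) = 0 := by
    have h := congrArg (fun A : H →L[ℂ] H => A (v : H)) hA
    simpa [G.P_self v.2] using h
  rw [Submodule.starProjection_apply_eq_zero_iff, Submodule.orthogonal_orthogonal] at hv
  obtain ⟨v', hv', hvv⟩ := hv
  rwa [Subtype.ext hvv] at hv'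

variable (hT : T ≠ 0)

include hT

theorem injective : Function.Injective T := by
  rw [injective_iff_map_eq_zero]
  intro x hx
  by_contra h0
  refine hT (ContinuousLinearMap.ext fun z => ?_)
  have h : T = 0 := orbit_dense htr h0 T fun X hX => by
    rw [show T (X x) = X (T x) from (congrArg (fun A : H →L[ℂ] H => A x) hX).symm, hx, map_zero]
  rw [h]

theorem denseRange : DenseRange T := by
  have htop : (LinearMap.range (T : H →ₗ[ℂ] H)).topologicalClosure = ⊤ := by
    by_contra hne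
    refine htr ⟨_, Submodule.isClosed_topologicalClosure _, fun hb => hT ?_, hne, fun X hX z hz => ?_⟩
    · refine ContinuousLinearMap.ext fun z => ?_
      exact (Submodule.mem_bot ℂ).1 (hb ▸ Submodule.le_topologicalClosure _ ⟨z, rfl⟩)
    · refine map_mem_closure X.continuous hz ?_
      rintro _ ⟨y, rfl⟩
      exact ⟨X y, (congrArg (fun A : H →L[ℂ] H => A y) hX).symm⟩
  intro y
  have : y ∈ (LinearMap.range (T : H →ₗ[ℂ] H)).topologicalClosure := by
    rw [htop]; exact Submodule.mem_top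
  exact this

theorem surj_piece (n : ℤ) {v : H} (hv : v ∈ G.E (n + 1)) : ∃ u ∈ G.E n, T u = v := by
  let V : Submodule ℂ H := (G.E n).map (T : H →ₗ[ℂ] H)
  have hVc : IsClosed (V : Set H) := Submodule.closed_of_finiteDimensional V
  have hmem : ∀ y, G.P (n + 1) (T y) ∈ V := fun y => ⟨G.P n y, G.P_mem n y, (G.P_comm n y).symm⟩
  have : G.P (n + 1) v ∈ V :=
    (denseRange htr hT).induction_on v (hVc.preimage (G.P (n + 1)).continuous) hmem
  rwa [G.P_self hv] at this

theorem exists_ne_zero : ∃ x : G.E 0, x ≠ 0 := by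
  by_contra hcon
  push Not at hcon
  have hall : ∀ n, ∀ x ∈ G.E n, x = 0 := by
    intro n
    induction n using Int.induction_on with
    | zero => exact fun x hx => congrArg Subtype.val (hcon ⟨x, hx⟩)
    | succ i ih =>
      intro x hx
      obtain ⟨u, hu, rfl⟩ := G.surj_piece htr hT _ hx
      rw [ih u hu, map_zero]
    | pred i ih =>
      intro x hx
      refine injective htr hT ?_
      rw [map_zero]
      have h := G.degree _ x hx
      rw [show -(i : ℤ) - 1 + 1 = -(i : ℤ) by ring] at h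
      exact ih _ h
  exact hT (G.eq_of_eq_on_pieces fun n x hx => by rw [hall n x hx]; simp)

/-- A family of degree minus one inverting `T`. -/
theorem exists_inverse_family :
    ∃ C, G.IsFamily (-1) C ∧ ∀ n, ∀ x ∈ G.E n, T (C n x) = x := by
  classical
  obtain ⟨x₀, hx₀⟩ := G.exists_ne_zero htr hT
  obtain ⟨y, hy, hy'⟩ := G.surj_piece htr hT (-1) (v := x₀) (by norm_num)
  obtain ⟨C, hC, hC0⟩ : ∃ C, G.IsFamily (-1) C ∧ C 0 (x₀ : H) ≠ 0 := by
    by_contra hcon
    push Not at hcon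
    have h : G.P (-1) = 0 := orbit_dense htr (x := (x₀ : H)) (fun h => hx₀ (Subtype.ext h)) _
      fun X hX => by
        have := hcon _ (G.family_of_commute hX (-1))
        simpa using this
    have h2 : G.P (-1) y = 0 := by rw [h]; rfl
    rw [G.P_self hy] at h2
    rw [h2, map_zero] at hy'
    exact hx₀ (Subtype.ext hy'.symm)
  let J : Submodule ℂ (Module.End ℂ (G.E 0)) :=
    { carrier := {f | ∃ D, G.IsFamily (-1) D ∧ ∀ x : G.E 0, T (D 0 x) = (f x : H)}
      add_mem' := by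
        rintro f g ⟨D, hD, hDf⟩ ⟨D', hD', hDg⟩
        exact ⟨_, G.isFamily_add hD hD', fun x => by simp [hDf, hDg]⟩
      zero_mem' := ⟨_, G.isFamily_zero _, fun x => by simp⟩
      smul_mem' := by
        rintro c f ⟨D, hD, hDf⟩
        exact ⟨_, G.isFamily_smul c hD, fun x => by simp [hDf]⟩ }
  have hideal : ∀ g h f : Module.End ℂ (G.E 0), f ∈ J → g * f * h ∈ J := by
    intro g h f hf
    obtain ⟨D, hD, hDf⟩ := hf
    obtain ⟨A, hA, hAg⟩ : g ∈ G.degZero := by rw [degZero_eq_top G htr]; trivial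
    obtain ⟨B, hB, hBh⟩ : h ∈ G.degZero := by rw [degZero_eq_top G htr]; trivial
    refine ⟨_, G.isFamily_mul (zero_add (-1)) hA (G.isFamily_mul (add_zero (-1)) hD hB),
      fun x => ?_⟩
    show T (A (0 + -1) (D (0 + 0) (B 0 x))) = _
    have hmem : D 0 (h x : H) ∈ G.E (-1) := by simpa using hD.1 0 _ (h x).2
    rw [zero_add, zero_add, hBh, ← hA.2.1 (-1) _ hmem]
    norm_num
    rw [hDf, hAg]
  have hc0 : C 0 (x₀ : H) ∈ G.E (-1) := by simpa using hC.1 0 _ x₀.2
  let f₀ : Module.End ℂ (G.E 0) :=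
    LinearMap.codRestrict _ (((T.comp (C 0) : H →L[ℂ] H) : H →ₗ[ℂ] H).comp (G.E 0).subtype)
      fun x => by
        have h := G.degree _ _ (hC.1 0 _ x.2)
        rwa [show (0 : ℤ) + -1 + 1 = 0 by norm_num] at h
  have hf₀ : f₀ ∈ J := ⟨C, hC, fun x => by simp [f₀]⟩
  have hz : f₀ x₀ ≠ 0 := fun h => hC0 (injective htr hT (by
    rw [map_zero]; exact congrArg Subtype.val h))
  let b := Module.finBasis ℂ (G.E 0)
  obtain ⟨φ, hφ⟩ := Module.Projective.exists_dual_eq_one ℂ hz
  have h1 : (1 : Module.End ℂ (G.E 0)) ∈ J := by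
    have : (1 : Module.End ℂ (G.E 0)) =
        ∑ i, φ.smulRight (b i) * f₀ * (b.coord i).smulRight x₀ := by
      refine LinearMap.ext fun x => ?_
      simp [hφ, smul_smul, b.sum_repr]
    rw [this]
    exact J.sum_mem fun i _ => hideal _ _ _ hf₀
  obtain ⟨D, hD, hD1⟩ := h1
  refine ⟨D, hD, fun n => ?_⟩
  induction n using Int.induction_on with
  | zero => exact fun x hx => hD1 ⟨x, hx⟩
  | succ i ih =>
    intro x hx
    obtain ⟨u, hu, rfl⟩ := G.surj_piece htr hT _ hx
    rw [hD.2.1 _ u hu, ih u hu]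
  | pred i ih =>
    intro x hx
    refine injective htr hT ?_
    have h := G.degree _ x hx
    rw [show -(i : ℤ) - 1 + 1 = -(i : ℤ) by ring] at h
    rw [← hD.2.1 _ x hx, show -(i : ℤ) - 1 + 1 = -(i : ℤ) by ring]
    exact ih _ h

include G in
/-- `T` is invertible. -/
theorem isUnit : IsUnit T := by
  classical
  obtain ⟨C, hC, hTC⟩ := G.exists_inverse_family htr hT
  obtain ⟨-, hC2, M, hM⟩ := hC
  have hCT : ∀ n, ∀ x ∈ G.E n, C (n + 1) (T x) = x := fun n x hx => by
    rw [hC2 n x hx, hTC n x hx]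
  have hM0 : 0 ≤ M := (norm_nonneg _).trans (hM 0)
  have hfam : OrthogonalFamily ℂ (fun n => G.E n) fun n => (G.E n).subtypeₗᵢ :=
    fun i j hij v w => G.orth i j hij v v.2 w w.2
  have hbd : ∀ x ∈ (⨆ n, G.E n), ‖x‖ ≤ M * ‖T x‖ := by
    intro x hx
    obtain ⟨f, rfl⟩ := (Submodule.mem_iSup_iff_exists_dfinsupp _ x).1 hx
    rw [DFinsupp.lsum_apply_apply, DFinsupp.sumAddHom_apply, DFinsupp.sum]
    simp only [LinearMap.toAddMonoidHom_coe, Submodule.subtype_apply]
    set s := f.support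
    have e1 : ‖∑ i ∈ s, (f i : H)‖ ^ 2 = ∑ i ∈ s, ‖(f i : H)‖ ^ 2 := by
      simpa using hfam.norm_sum (fun i => f i) s
    let g : ∀ n, G.E n := fun n => ⟨T (f (n - 1) : H), by
      have h := G.degree _ _ (f (n - 1)).2
      rwa [sub_add_cancel] at h⟩
    have e2 : ‖T (∑ i ∈ s, (f i : H))‖ ^ 2 = ∑ i ∈ s, ‖T (f i : H)‖ ^ 2 := by
      have hval : ∀ x, (g (x + 1) : H) = T (f x : H) := fun x =>
        congrArg (fun m => T (f m : H)) (add_sub_cancel_right x 1)
      have := hfam.norm_sum g (s.map (addRightEmbedding 1))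
      simpa [hval, Finset.sum_map, map_sum, addRightEmbedding] using this
    have hle : ‖∑ i ∈ s, (f i : H)‖ ^ 2 ≤ (M * ‖T (∑ i ∈ s, (f i : H))‖) ^ 2 := by
      rw [e1, mul_pow, e2, Finset.mul_sum]
      refine Finset.sum_le_sum fun i _ => ?_
      rw [← mul_pow]
      refine pow_le_pow_left₀ (norm_nonneg _) ?_ 2
      calc ‖(f i : H)‖ = ‖C (i + 1) (T (f i : H))‖ := by rw [hCT i _ (f i).2]
        _ ≤ M * ‖T (f i : H)‖ := (C _).le_of_opNorm_le (hM _) _
    exact le_of_pow_le_pow_left₀ two_ne_zero (by positivity) hle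
  have hall : ∀ x, ‖x‖ ≤ M * ‖T x‖ := fun x => by
    have hx : x ∈ (⨆ n, G.E n).topologicalClosure := by rw [G.dense]; exact Submodule.mem_top
    exact closure_minimal hbd (isClosed_le continuous_norm (by fun_prop)) hx
  have hanti : AntilipschitzWith M.toNNReal T :=
    AddMonoidHomClass.antilipschitz_of_bound T fun x => by
      rw [Real.coe_toNNReal M hM0]; exact hall x
  have hcl : IsClosed (Set.range T) := hanti.isClosed_range T.uniformContinuous
  have hsurj : Function.Surjective T := fun y => by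
    have := denseRange htr hT y
    rwa [hcl.closure_eq] at this
  exact ContinuousLinearMap.isUnit_iff_bijective.2 ⟨injective htr hT, hsurj⟩

/-- The powers of `T` are uniformly conformal on the pieces. -/
theorem conformal : ∃ M : ℝ, ∀ (j : ℤ) (k : ℕ), ∀ v ∈ G.E j, ∀ w ∈ G.E j,
    ‖v‖ = 1 → ‖w‖ = 1 → ‖(T ^ k) v‖ ≤ M * ‖(T ^ k) w‖ := by
  classical
  obtain ⟨u, hu⟩ := G.isUnit htr hT
  have hpow : ∀ (n : ℤ) (x : H), x ∈ G.E n → ∀ k : ℕ, (T ^ k) x ∈ G.E (n + k) := by
    intro n x hx k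
    induction k with
    | zero => simpa using hx
    | succ k ih =>
      rw [pow_succ', mul_apply_eq_comp, Nat.cast_succ, ← add_assoc]
      exact G.degree _ _ ih
  let U : ℤ → (H →L[ℂ] H) := fun n => ((u ^ n : (H →L[ℂ] H)ˣ) : H →L[ℂ] H)
  have hU0 : ∀ x, U 0 x = x := fun x => by simp [U]
  have hUs : ∀ n x, U (n + 1) x = T (U n x) := fun n x => by
    simp only [U, ← hu]
    rw [add_comm, zpow_add, zpow_one, Units.val_mul, mul_apply_eq_comp]
  have hUk : ∀ n (k : ℕ) x, U (n + k) x = (T ^ k) (U n x) := by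
    intro n k x
    induction k with
    | zero => simp
    | succ k ih => rw [Nat.cast_succ, ← add_assoc, hUs, ih, pow_succ', mul_apply_eq_comp]
  have hUmem : ∀ n, ∀ x ∈ G.E 0, U n x ∈ G.E n ∧ (∀ y ∈ G.E n, ∃ z ∈ G.E 0, U n z = y) := by
    intro n
    induction n using Int.induction_on with
    | zero => exact fun x hx => ⟨by rwa [hU0], fun y hy => ⟨y, hy, hU0 y⟩⟩
    | succ i ih =>
      intro x hx
      refine ⟨by rw [hUs]; exact G.degree _ _ (ih x hx).1, fun y hy => ?_⟩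
      obtain ⟨v, hv, rfl⟩ := G.surj_piece htr hT _ hy
      obtain ⟨z, hz, rfl⟩ := (ih x hx).2 v hv
      exact ⟨z, hz, hUs _ z⟩
    | pred i ih =>
      intro x hx
      have e : T (U (-(i : ℤ) - 1) x) = U (-(i : ℤ)) x := by
        rw [← hUs]; congr 2; ring
      refine ⟨?_, fun y hy => ?_⟩
      · obtain ⟨v, hv, hv'⟩ := G.surj_piece htr hT (-(i : ℤ) - 1) (v := U (-(i : ℤ)) x)
          (by rw [show -(i : ℤ) - 1 + 1 = -(i : ℤ) by ring]; exact (ih x hx).1)
        rwa [injective htr hT (hv'.trans e.symm)] at hv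
      · have h := G.degree _ y hy
        rw [show -(i : ℤ) - 1 + 1 = -(i : ℤ) by ring] at h
        obtain ⟨z, hz, hz'⟩ := (ih x hx).2 _ h
        refine ⟨z, hz, injective htr hT ?_⟩
        rw [← hz', ← hUs]
        congr 2; ring
  have hfam : ∀ {C : ℤ → H →L[ℂ] H}, G.IsFamily 0 C → ∀ n, ∀ x ∈ G.E 0,
      C n (U n x) = U n (C 0 x) := by
    intro C hC n
    induction n using Int.induction_on with
    | zero => intro x _; simp [hU0]
    | succ i ih =>
      intro x hx
      rw [hUs, hUs, hC.2.1 _ _ (hUmem i x hx).1, ih x hx]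
    | pred i ih =>
      intro x hx
      refine injective htr hT ?_
      rw [← hC.2.1 _ _ (hUmem _ x hx).1, ← hUs, ← hUs,
        show -(i : ℤ) - 1 + 1 = -(i : ℤ) by ring]
      exact ih x hx
  let b := stdOrthonormalBasis ℂ (G.E 0)
  have hmat : ∀ p : Fin (Module.finrank ℂ (G.E 0)) × Fin (Module.finrank ℂ (G.E 0)),
      ∃ C, G.IsFamily 0 C ∧ (∃ M, ∀ n, ‖C n‖ ≤ M) ∧
        ∀ x : G.E 0, C 0 x = ⟪b p.2, x⟫_ℂ • (b p.1 : H) := by
    intro p
    let f : Module.End ℂ (G.E 0) := (innerSL ℂ (b p.2) : G.E 0 →ₗ[ℂ] ℂ).smulRight (b p.1)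
    obtain ⟨C, hC, hCf⟩ : f ∈ G.degZero := by rw [degZero_eq_top G htr]; trivial
    exact ⟨C, hC, hC.2.2, fun x => by rw [hCf]; simp [f]⟩
  choose C hC hCM hC0 using hmat
  choose M hM using hCM
  let K : ℝ := ∑ p, M p
  have hK0 : 0 ≤ K := Finset.sum_nonneg fun p _ => (norm_nonneg _).trans (hM p 0)
  have main : ∀ n, ∀ a c : G.E 0,
      ‖U n (a : H)‖ * ‖c‖ ^ 2 ≤ K * (‖a‖ * ‖c‖) * ‖U n (c : H)‖ := by
    intro n a c
    let D : H →L[ℂ] H := ∑ p, (⟪b p.1, a⟫_ℂ * ⟪(c : G.E 0), b p.2⟫_ℂ) • C p n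
    have hD : D (U n c) = ((‖c‖ ^ 2 : ℝ) : ℂ) • U n (a : H) := by
      simp only [D, sum_apply, smul_apply, hfam (hC _) n _ c.2, hC0, map_smul, smul_smul,
        Fintype.sum_prod_type]
      simp only [mul_assoc, ← Finset.sum_smul, ← Finset.mul_sum, b.sum_inner_mul_inner]
      rw [inner_self_eq_norm_sq_to_K]
      have ha : (a : H) = ∑ i, ⟪b i, a⟫_ℂ • (b i : H) := by
        conv_lhs => rw [← b.sum_repr' a]
        simp
      conv_rhs => rw [ha]
      simp [Finset.smul_sum, smul_smul, mul_comm]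
    have hDn : ‖D‖ ≤ K * (‖a‖ * ‖c‖) := by
      refine (norm_sum_le _ _).trans ?_
      rw [Finset.sum_mul]
      refine Finset.sum_le_sum fun p _ => ?_
      rw [norm_smul, norm_mul, mul_comm (M p)]
      refine mul_le_mul ?_ (hM p n) (norm_nonneg _) (by positivity)
      have h1 := norm_inner_le_norm (𝕜 := ℂ) (b p.1) a
      have h2 := norm_inner_le_norm (𝕜 := ℂ) c (b p.2)
      rw [b.orthonormal.1, one_mul] at h1
      rw [b.orthonormal.1, mul_one] at h2
      exact mul_le_mul h1 h2 (norm_nonneg _) (norm_nonneg _)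
    have h := D.le_of_opNorm_le hDn (U n c)
    rw [hD, norm_smul, Complex.norm_real, Real.norm_of_nonneg (sq_nonneg _)] at h
    linarith
  refine ⟨K * K, fun j k v hv w hw hv1 hw1 => ?_⟩
  obtain ⟨x₀, hx₀⟩ := G.exists_ne_zero htr hT
  obtain ⟨a, ha, rfl⟩ := (hUmem j x₀ x₀.2).2 v hv
  obtain ⟨c, hc, rfl⟩ := (hUmem j x₀ x₀.2).2 w hw
  have hcp : 0 < ‖c‖ := norm_pos_iff.2 fun h => by
    rw [h, map_zero, norm_zero] at hw1; exact zero_ne_one hw1
  have h1 := main (j + k) ⟨a, ha⟩ ⟨c, hc⟩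
  have h2 := main j ⟨c, hc⟩ ⟨a, ha⟩
  simp only [Submodule.coe_norm] at h1 h2
  rw [hv1, hw1, one_mul, mul_one] at h2
  rw [← hUk, ← hUk]
  have hap : 0 < ‖a‖ := norm_pos_iff.2 fun h => by
    rw [h, map_zero, norm_zero] at hv1; exact zero_ne_one hv1
  have h3 : ‖a‖ ≤ K * ‖c‖ := by nlinarith
  have h4 : ‖U (j + k) a‖ * ‖c‖ ≤ K * ‖a‖ * ‖U (j + k) c‖ := by
    refine le_of_mul_le_mul_right ?_ hcp
    nlinarith
  refine le_of_mul_le_mul_right (h4.trans ?_) hcp
  calc K * ‖a‖ * ‖U (j + k) c‖ ≤ K * (K * ‖c‖) * ‖U (j + k) c‖ := by gcongr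
    _ = K * K * ‖U (j + k) c‖ * ‖c‖ := by ring

end Grading

end Vale.Agent.P131
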