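import Vale.Agent.P131.Graded

/-!
# P131: a factorisation criterion for hyperinvariant subspaces from a pair of orbits

For an invertible `U` and vectors `a`, `a'`, every `A` in the commutant satisfies
`⟪Y i, A (X j)⟫ = d_A (i - j)`, where `X j = U^j a` and `Y i = (U^*)^{-i} a'`.  Two vectors `x`, `y`
with `⟪y, A x⟫ = 0` for the whole commutant are built as limits of finite orbit combinations.
-/

namespace Vale.Agent.P131.Orbit

open scoped InnerProductSpace ComplexConjugate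
open Filter Topology

variable {H : Type*} [NormedAddCommGroup H] [InnerProductSpace ℂ H] [CompleteSpace H]
set_option linter.unusedSectionVars false

variable (U : (H →L[ℂ] H)ˣ) (a a' : H)

/-- Integer powers of `U`. -/
noncomputable def pw (j : ℤ) : H →L[ℂ] H := ((U ^ j : (H →L[ℂ] H)ˣ) : H →L[ℂ] H)

/-- The orbit of `a`. -/
noncomputable def X (j : ℤ) : H := pw U j a

/-- The adjoint orbit of `a'`. -/
noncomputable def Y (i : ℤ) : H := ContinuousLinearMap.adjoint (pw U (-i)) a'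

theorem pw_zero (x : H) : pw U 0 x = x := by simp [pw]

theorem pw_add (i j : ℤ) (x : H) : pw U (i + j) x = pw U i (pw U j x) := by
  simp only [pw, zpow_add, Units.val_mul, mul_apply_eq_comp]

theorem X_zero : X U a 0 = a := pw_zero U a

theorem Y_zero : Y U a' 0 = a' := by
  refine ext_inner_right ℂ fun w => ?_
  rw [Y, ContinuousLinearMap.adjoint_inner_left, neg_zero, pw_zero]

theorem inner_Y_left (i : ℤ) (w : H) : ⟪Y U a' i, w⟫_ℂ = ⟪a', pw U (-i) w⟫_ℂ := by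
  rw [Y, ContinuousLinearMap.adjoint_inner_left]

variable {A : H →L[ℂ] H}

theorem pw_comm (hA : A * (U : H →L[ℂ] H) = (U : H →L[ℂ] H) * A) (j : ℤ) (x : H) :
    A (pw U j x) = pw U j (A x) :=
  congrArg (fun B : H →L[ℂ] H => B x) ((Commute.units_zpow_right (show Commute A ↑U from hA) j).eq)

/-- The coefficient sequence of a member of the commutant. -/
noncomputable def d (A : H →L[ℂ] H) (n : ℤ) : ℂ := ⟪Y U a' n, A a⟫_ℂ

theorem inner_YX (hA : A * (U : H →L[ℂ] H) = (U : H →L[ℂ] H) * A) (i j : ℤ) :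
    ⟪Y U a' i, A (X U a j)⟫_ℂ = d U a a' A (i - j) := by
  rw [d, inner_Y_left, inner_Y_left, X, pw_comm U hA, ← pw_add, show -i + j = -(i - j) by ring]

/-- Finite combinations of the orbit. -/
noncomputable def vx : (ℤ →₀ ℂ) →ₗ[ℂ] H := Finsupp.linearCombination ℂ (X U a)

/-- Finite combinations of the adjoint orbit. -/
noncomputable def vy : (ℤ →₀ ℂ) →ₗ[ℂ] H := Finsupp.linearCombination ℂ (Y U a')

/-- The functional represented by a finitely supported sequence. -/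
noncomputable def pd (A : H →L[ℂ] H) : (ℤ →₀ ℂ) →ₗ[ℂ] ℂ :=
  Finsupp.linearCombination ℂ (d U a a' A)

/-- `(h, f)` represents `r` on the commutant. -/
def Rep (f h r : ℤ →₀ ℂ) : Prop :=
  ∀ A : H →L[ℂ] H, A * (U : H →L[ℂ] H) = (U : H →L[ℂ] H) * A →
    ⟪vy U a' h, A (vx U a f)⟫_ℂ = pd U a a' A r

theorem inner_vy_X (hA : A * (U : H →L[ℂ] H) = (U : H →L[ℂ] H) * A) (h : ℤ →₀ ℂ) (j : ℤ) :
    ⟪vy U a' h, A (X U a j)⟫_ℂ = ∑ k ∈ h.support, conj (h k) * d U a a' A (k - j) := by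
  simp [vy, Finsupp.linearCombination_apply, Finsupp.sum, inner_YX U a a' hA, mul_comm]

theorem inner_Y_vx (hA : A * (U : H →L[ℂ] H) = (U : H →L[ℂ] H) * A) (f : ℤ →₀ ℂ) (i : ℤ) :
    ⟪Y U a' i, A (vx U a f)⟫_ℂ = ∑ k ∈ f.support, f k * d U a a' A (i - k) := by
  simp [vx, Finsupp.linearCombination_apply, Finsupp.sum, inner_YX U a a' hA]

/-- The weighted `ℓ¹` size of a finitely supported sequence. -/
noncomputable def size (g : ℤ → ℝ) (r : ℤ →₀ ℂ) : ℝ := r.sum fun n c => ‖c‖ * g n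

theorem size_single (g : ℤ → ℝ) (n : ℤ) (c : ℂ) : size g (Finsupp.single n c) = ‖c‖ * g n := by
  simp [size]

theorem size_add_le {g : ℤ → ℝ} (hg : ∀ n, 0 ≤ g n) (r s : ℤ →₀ ℂ) :
    size g (r + s) ≤ size g r + size g s := by
  classical
  have h1 := Finsupp.sum_of_support_subset (r + s)
    (s := r.support ∪ s.support) Finsupp.support_add (fun n c => ‖c‖ * g n) (by simp)
  have h2 := Finsupp.sum_of_support_subset r
    (s := r.support ∪ s.support) Finset.subset_union_left (fun n c => ‖c‖ * g n) (by simp)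
  have h3 := Finsupp.sum_of_support_subset s
    (s := r.support ∪ s.support) Finset.subset_union_right (fun n c => ‖c‖ * g n) (by simp)
  rw [size, size, size, h1, h2, h3, ← Finset.sum_add_distrib]
  refine Finset.sum_le_sum fun n _ => ?_
  rw [← add_mul]
  exact mul_le_mul_of_nonneg_right (by simpa using norm_add_le (r n) (s n)) (hg n)

theorem size_sum_le {g : ℤ → ℝ} (hg : ∀ n, 0 ≤ g n) (t : Finset ℤ) (F : ℤ → ℤ →₀ ℂ) :
    size g (∑ k ∈ t, F k) ≤ ∑ k ∈ t, size g (F k) :=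
  Finset.le_sum_of_subadditive (size g) (by simp [size]) (size_add_le hg) t F

/-- The hypotheses of the criterion. -/
structure Data (g : ℤ → ℝ) : Prop where
  weakX : ∀ z : H, Tendsto (fun j => ‖⟪z, X U a j⟫_ℂ‖ / ‖X U a j‖) cofinite (𝓝 0)
  weakY : ∀ z : H, Tendsto (fun j => ‖⟪z, Y U a' j⟫_ℂ‖ / ‖Y U a' j‖) cofinite (𝓝 0)
  attain : ∀ n, ∃ᶠ j in cofinite, ‖X U a j‖ * ‖Y U a' (j + n)‖ ≤ g n
  crossX : ∀ k, Tendsto (fun j => g (k - j) / ‖X U a j‖) cofinite (𝓝 0)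
  crossY : ∀ k, Tendsto (fun j => g (j - k) / ‖Y U a' j‖) cofinite (𝓝 0)

variable {U a a'}

theorem X_ne_zero (ha : a ≠ 0) (j : ℤ) : X U a j ≠ 0 := by
  intro h
  apply ha
  rw [← pw_zero U a, show (0 : ℤ) = -j + j by ring, pw_add]
  rw [X] at h
  rw [h, map_zero]

theorem Y_ne_zero (ha : a' ≠ 0) (i : ℤ) : Y U a' i ≠ 0 := by
  intro h
  refine ha (inner_self_eq_zero (𝕜 := ℂ) |>.1 ?_)
  have h1 := inner_Y_left U a' i (pw U i a')
  rw [h, inner_zero_left, ← pw_add, show -i + i = 0 by ring, pw_zero] at h1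
  exact h1.symm

variable {g : ℤ → ℝ}

theorem Data.g_nonneg (D : Data U a a' g) (n : ℤ) : 0 ≤ g n := by
  obtain ⟨j, hj⟩ := (D.attain n).exists
  exact (by positivity : (0 : ℝ) ≤ _).trans hj

theorem Data.norm_d_le (D : Data U a a' g) (hA : A * (U : H →L[ℂ] H) = (U : H →L[ℂ] H) * A)
    (n : ℤ) : ‖d U a a' A n‖ ≤ ‖A‖ * g n := by
  obtain ⟨j, hj⟩ := (D.attain n).exists
  have h := inner_YX U a a' hA (j + n) j
  rw [add_sub_cancel_left] at h
  rw [← h]
  calc ‖⟪Y U a' (j + n), A (X U a j)⟫_ℂ‖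
      ≤ ‖Y U a' (j + n)‖ * ‖A (X U a j)‖ := norm_inner_le_norm _ _
    _ ≤ ‖Y U a' (j + n)‖ * (‖A‖ * ‖X U a j‖) := by gcongr; exact A.le_opNorm _
    _ = ‖A‖ * (‖X U a j‖ * ‖Y U a' (j + n)‖) := by ring
    _ ≤ ‖A‖ * g n := by gcongr

theorem Data.norm_pd_le (D : Data U a a' g) (hA : A * (U : H →L[ℂ] H) = (U : H →L[ℂ] H) * A)
    (r : ℤ →₀ ℂ) : ‖pd U a a' A r‖ ≤ ‖A‖ * size g r := by
  rw [pd, Finsupp.linearCombination_apply, size, Finsupp.sum, Finsupp.sum, Finset.mul_sum]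
  refine (norm_sum_le _ _).trans (Finset.sum_le_sum fun n _ => ?_)
  rw [norm_smul]
  calc ‖r n‖ * ‖d U a a' A n‖ ≤ ‖r n‖ * (‖A‖ * g n) := by gcongr; exact D.norm_d_le hA n
    _ = ‖A‖ * (‖r n‖ * g n) := by ring

/-- One elementary step: add a multiple of `d · n` at a small cost. -/
theorem Data.add_pair (D : Data U a a' g) (ha : a ≠ 0) (ha' : a' ≠ 0) (f h : ℤ →₀ ℂ) (n : ℤ)
    (z : ℂ) (x₀ y₀ : H) {ε : ℝ} (hε : 0 < ε) :
    ∃ f' h' E : ℤ →₀ ℂ,
      (∀ A : H →L[ℂ] H, A * (U : H →L[ℂ] H) = (U : H →L[ℂ] H) * A →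
        ⟪vy U a' h', A (vx U a f')⟫_ℂ =
          ⟪vy U a' h, A (vx U a f)⟫_ℂ + z * d U a a' A n + pd U a a' A E) ∧
      size g E ≤ ε ∧
      ‖vx U a f' - x₀‖ ^ 2 ≤ ‖vx U a f - x₀‖ ^ 2 + ‖z‖ * g n + ε ∧
      ‖vy U a' h' - y₀‖ ^ 2 ≤ ‖vy U a' h - y₀‖ ^ 2 + ‖z‖ * g n + ε ∧
      ‖⟪a', vx U a f' - vx U a f⟫_ℂ‖ ≤ ε ∧ ‖⟪a, vy U a' h' - vy U a' h⟫_ℂ‖ ≤ ε := by
  classical
  by_cases hz : z = 0
  · exact ⟨f, h, 0, fun A _ => by simp [hz], by simp [size, hε.le], by simp [hz, hε.le],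
      by simp [hz, hε.le], by simp [hε.le], by simp [hε.le]⟩
  have hg := D.g_nonneg
  set K := √(‖z‖ * g n) with hKdef
  have hK : 0 ≤ K := Real.sqrt_nonneg _
  have hsh : Tendsto (fun j : ℤ => j + n) cofinite cofinite :=
    (add_left_injective n).tendsto_cofinite
  -- the error terms, all tending to zero
  have e1 : Tendsto (fun j => ∑ k ∈ h.support, K * ‖h k‖ * (g (k - j) / ‖X U a j‖)) cofinite
      (𝓝 0) := by
    simpa using tendsto_finsetSum h.support fun k _ => (D.crossX k).const_mul (K * ‖h k‖)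
  have e2 : Tendsto (fun j => ∑ k ∈ f.support, K * ‖f k‖ * (g (j + n - k) / ‖Y U a' (j + n)‖))
      cofinite (𝓝 0) := by
    simpa using tendsto_finsetSum f.support fun k _ =>
      ((D.crossY k).comp hsh).const_mul (K * ‖f k‖)
  have e3 := (D.weakX (vx U a f - x₀)).const_mul (2 * K)
  have e4 := ((D.weakY (vy U a' h - y₀)).comp hsh).const_mul (2 * K)
  have e5 := (D.weakX a').const_mul K
  have e6 := ((D.weakY a).comp hsh).const_mul K
  rw [mul_zero] at e3 e4 e5 e6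
  obtain ⟨j, hP, h12, h3, h4, h5, h6⟩ := ((D.attain n).and_eventually
    (((e1.add e2).eventually_le_const (by simpa using hε)).and <|
      (e3.eventually_le_const hε).and <| (e4.eventually_le_const hε).and <|
        (e5.eventually_le_const hε).and (e6.eventually_le_const hε))).exists
  simp only [Function.comp_apply] at h4 h6
  set P := X U a j with hPdef
  set Q := Y U a' (j + n) with hQdef
  have hp : 0 < ‖P‖ := norm_pos_iff.2 (X_ne_zero ha j)
  have hq : 0 < ‖Q‖ := norm_pos_iff.2 (Y_ne_zero ha' _)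
  have hz' : 0 < ‖z‖ := norm_pos_iff.2 hz
  set t := √(‖Q‖ / (‖z‖ * ‖P‖)) with htdef
  have ht : 0 < t := Real.sqrt_pos.2 (by positivity)
  have ht2 : t ^ 2 = ‖Q‖ / (‖z‖ * ‖P‖) := Real.sq_sqrt (by positivity)
  set α : ℂ := z * (t : ℂ) with hα
  set β : ℂ := ((t⁻¹ : ℝ) : ℂ) with hβ
  have hαn : ‖α‖ = ‖z‖ * t := by simp [hα, abs_of_pos ht]
  have hβn : ‖β‖ = t⁻¹ := by simp [hβ, abs_of_pos ht]
  have hαβ : conj β * α = z := by
    rw [hβ, Complex.conj_ofReal, hα, Complex.ofReal_inv]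
    field_simp [(by exact_mod_cast ht.ne' : (t : ℂ) ≠ 0)]
  have hαP : ‖α • P‖ ^ 2 = ‖z‖ * (‖P‖ * ‖Q‖) := by
    rw [norm_smul, hαn, mul_pow, mul_pow, ht2]; field_simp
  have hβQ : ‖β • Q‖ ^ 2 = ‖z‖ * (‖P‖ * ‖Q‖) := by
    rw [norm_smul, hβn, mul_pow, inv_pow, ht2]; field_simp
  have hPQ : ‖z‖ * (‖P‖ * ‖Q‖) ≤ ‖z‖ * g n := mul_le_mul_of_nonneg_left hP hz'.le
  have hαK : ‖α‖ ≤ K / ‖P‖ := by
    rw [le_div_iff₀ hp, ← norm_smul]
    exact Real.le_sqrt_of_sq_le (hαP.trans_le hPQ)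
  have hβK : ‖β‖ ≤ K / ‖Q‖ := by
    rw [le_div_iff₀ hq, ← norm_smul]
    exact Real.le_sqrt_of_sq_le (hβQ.trans_le hPQ)
  let E₁ : ℤ →₀ ℂ := ∑ k ∈ h.support, Finsupp.single (k - j) (α * conj (h k))
  let E₂ : ℤ →₀ ℂ := ∑ k ∈ f.support, Finsupp.single (j + n - k) (conj β * f k)
  refine ⟨f + Finsupp.single j α, h + Finsupp.single (j + n) β, E₁ + E₂, fun A hA => ?_, ?_, ?_, ?_,
    ?_, ?_⟩
  · have hs : ⟪Q, A P⟫_ℂ = d U a a' A n := by
      rw [hQdef, hPdef, inner_YX U a a' hA, add_sub_cancel_left]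
    have hx' : vx U a (f + Finsupp.single j α) = vx U a f + α • P := by
      simp [vx, hPdef]
    have hy' : vy U a' (h + Finsupp.single (j + n) β) = vy U a' h + β • Q := by
      simp [vy, hQdef]
    rw [hx', hy', map_add A, map_smul A, inner_add_left, inner_add_right, inner_add_right,
      inner_smul_left, inner_smul_left, inner_smul_right, inner_smul_right, hs,
      inner_vy_X U a a' hA, inner_Y_vx U a a' hA, ← mul_assoc, hαβ]
    simp only [E₁, E₂, map_add, map_sum, pd, Finsupp.linearCombination_single, smul_eq_mul,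
      Finset.mul_sum, mul_assoc]
    ring
  · refine (size_add_le hg _ _).trans ((add_le_add (size_sum_le hg _ _)
      (size_sum_le hg _ _)).trans ?_)
    refine le_trans (add_le_add ?_ ?_) h12
    · refine Finset.sum_le_sum fun k _ => ?_
      rw [size_single, norm_mul, Complex.norm_conj]
      calc ‖α‖ * ‖h k‖ * g (k - j) ≤ K / ‖P‖ * ‖h k‖ * g (k - j) :=
            mul_le_mul_of_nonneg_right (mul_le_mul_of_nonneg_right hαK (norm_nonneg _)) (hg _)
        _ = _ := by ring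
    · refine Finset.sum_le_sum fun k _ => ?_
      rw [size_single, norm_mul, Complex.norm_conj]
      calc ‖β‖ * ‖f k‖ * g (j + n - k) ≤ K / ‖Q‖ * ‖f k‖ * g (j + n - k) :=
            mul_le_mul_of_nonneg_right (mul_le_mul_of_nonneg_right hβK (norm_nonneg _)) (hg _)
        _ = _ := by ring
  · have hx' : vx U a (f + Finsupp.single j α) - x₀ = (vx U a f - x₀) + α • P := by
      simp [vx, hPdef]; abel
    have hre : 2 * RCLike.re (K := ℂ) ⟪vx U a f - x₀, α • P⟫_ℂ ≤ ε := by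
      refine le_trans ?_ h3
      rw [inner_smul_right, mul_assoc (2 : ℝ)]
      refine mul_le_mul_of_nonneg_left ((RCLike.re_le_norm (K := ℂ) _).trans ?_) zero_le_two
      rw [norm_mul]
      exact (mul_le_mul_of_nonneg_right hαK (norm_nonneg _)).trans_eq (by ring)
    rw [hx', norm_add_sq (𝕜 := ℂ)]
    linarith
  · have hy' : vy U a' (h + Finsupp.single (j + n) β) - y₀ = (vy U a' h - y₀) + β • Q := by
      simp [vy, hQdef]; abel
    have hre : 2 * RCLike.re (K := ℂ) ⟪vy U a' h - y₀, β • Q⟫_ℂ ≤ ε := by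
      refine le_trans ?_ h4
      rw [inner_smul_right, mul_assoc (2 : ℝ)]
      refine mul_le_mul_of_nonneg_left ((RCLike.re_le_norm (K := ℂ) _).trans ?_) zero_le_two
      rw [norm_mul]
      exact (mul_le_mul_of_nonneg_right hβK (norm_nonneg _)).trans_eq (by ring)
    rw [hy', norm_add_sq (𝕜 := ℂ)]
    linarith
  · refine le_trans ?_ h5
    simp only [map_add, add_sub_cancel_left, vx, Finsupp.linearCombination_single, ← hPdef,
      inner_smul_right, norm_mul]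
    exact (mul_le_mul_of_nonneg_right hαK (norm_nonneg _)).trans_eq (by ring)
  · refine le_trans ?_ h6
    simp only [map_add, add_sub_cancel_left, vy, Finsupp.linearCombination_single, ← hQdef,
      inner_smul_right, norm_mul]
    exact (mul_le_mul_of_nonneg_right hβK (norm_nonneg _)).trans_eq (by ring)

/-- One stage: move the size of the represented sequence below `δ`. -/
theorem Data.stage (D : Data U a a' g) (ha : a ≠ 0) (ha' : a' ≠ 0) {f h r : ℤ →₀ ℂ}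
    (hrep : Rep U a a' f h r) {δ : ℝ} (hδ : 0 < δ) :
    ∃ f' h' r' : ℤ →₀ ℂ, Rep U a a' f' h' r' ∧ size g r' ≤ δ ∧
      ‖vx U a f' - vx U a f‖ ^ 2 ≤ size g r + δ ∧
      ‖vy U a' h' - vy U a' h‖ ^ 2 ≤ size g r + δ ∧
      ‖⟪a', vx U a f' - vx U a f⟫_ℂ‖ ≤ δ ∧ ‖⟪a, vy U a' h' - vy U a' h⟫_ℂ‖ ≤ δ := by
  classical
  set η := δ / ((r.support.card : ℝ) + 1) with hηdef
  have hη : 0 < η := by positivity
  have key : ∀ s : Finset ℤ, ∃ f' h' E : ℤ →₀ ℂ,
      (∀ A : H →L[ℂ] H, A * (U : H →L[ℂ] H) = (U : H →L[ℂ] H) * A →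
        ⟪vy U a' h', A (vx U a f')⟫_ℂ =
          ⟪vy U a' h, A (vx U a f)⟫_ℂ - (∑ n ∈ s, r n * d U a a' A n) + pd U a a' A E) ∧
      size g E ≤ s.card * η ∧
      ‖vx U a f' - vx U a f‖ ^ 2 ≤ (∑ n ∈ s, ‖r n‖ * g n) + s.card * η ∧
      ‖vy U a' h' - vy U a' h‖ ^ 2 ≤ (∑ n ∈ s, ‖r n‖ * g n) + s.card * η ∧
      ‖⟪a', vx U a f' - vx U a f⟫_ℂ‖ ≤ s.card * η ∧
      ‖⟪a, vy U a' h' - vy U a' h⟫_ℂ‖ ≤ s.card * η := by
    intro s
    induction s using Finset.induction with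
    | empty => exact ⟨f, h, 0, fun A _ => by simp, by simp [size], by simp, by simp, by simp,
        by simp⟩
    | @insert m s hm ih =>
      obtain ⟨f₁, h₁, E₁, hA₁, hE₁, hx₁, hy₁, hwx₁, hwy₁⟩ := ih
      obtain ⟨f₂, h₂, E₂, hA₂, hE₂, hx₂, hy₂, hwx₂, hwy₂⟩ :=
        D.add_pair ha ha' f₁ h₁ m (-r m) (vx U a f) (vy U a' h) hη
      rw [norm_neg] at hx₂ hy₂
      refine ⟨f₂, h₂, E₁ + E₂, fun A hA => ?_, ?_, ?_, ?_, ?_, ?_⟩
      · rw [hA₂ A hA, hA₁ A hA, Finset.sum_insert hm, map_add]; ring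
      all_goals rw [Finset.card_insert_of_notMem hm, Nat.cast_succ, add_mul, one_mul]
      · exact (size_add_le D.g_nonneg _ _).trans (by linarith)
      · rw [Finset.sum_insert hm]; linarith
      · rw [Finset.sum_insert hm]; linarith
      · rw [← sub_add_sub_cancel (vx U a f₂) (vx U a f₁) (vx U a f), inner_add_right]
        exact (norm_add_le _ _).trans (by linarith)
      · rw [← sub_add_sub_cancel (vy U a' h₂) (vy U a' h₁) (vy U a' h), inner_add_right]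
        exact (norm_add_le _ _).trans (by linarith)
  obtain ⟨f', h', E, hA, hE, hx, hy, hwx, hwy⟩ := key r.support
  have hc : (r.support.card : ℝ) * η ≤ δ := by
    rw [hηdef, ← mul_div_assoc, div_le_iff₀ (by positivity)]; nlinarith
  refine ⟨f', h', E, fun A hA' => ?_, hE.trans hc, ?_, ?_, hwx.trans hc, hwy.trans hc⟩
  · rw [hA A hA', hrep A hA']
    simp [pd, Finsupp.linearCombination_apply, Finsupp.sum]
  · exact hx.trans (add_le_add le_rfl hc)
  · exact hy.trans (add_le_add le_rfl hc)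

/-- The criterion. -/
theorem Data.hasHyperinvariantSubspace (D : Data U a a' g) (hp : ⟪a', a⟫_ℂ ≠ 0) :
    HasHyperinvariantSubspace (U : H →L[ℂ] H) := by
  classical
  have ha : a ≠ 0 := fun h => hp (by rw [h, inner_zero_right])
  have ha' : a' ≠ 0 := fun h => hp (by rw [h, inner_zero_left])
  set p := ‖⟪a', a⟫_ℂ‖ with hpdef
  have hppos : 0 < p := norm_pos_iff.2 hp
  set c := min 1 (p / 4)
  have hc : 0 < c := lt_min one_pos (by positivity)
  let δ : ℕ → ℝ := fun k => c * (1 / 4) ^ k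
  have hδ : ∀ k, 0 < δ k := fun k => by positivity
  let S := {s : (ℤ →₀ ℂ) × (ℤ →₀ ℂ) × (ℤ →₀ ℂ) // Rep U a a' s.1 s.2.1 s.2.2}
  have hstep : ∀ (k : ℕ) (s : S), ∃ s' : S, size g s'.1.2.2 ≤ δ k ∧
      ‖vx U a s'.1.1 - vx U a s.1.1‖ ^ 2 ≤ size g s.1.2.2 + δ k ∧
      ‖vy U a' s'.1.2.1 - vy U a' s.1.2.1‖ ^ 2 ≤ size g s.1.2.2 + δ k ∧
      ‖⟪a', vx U a s'.1.1 - vx U a s.1.1⟫_ℂ‖ ≤ δ k ∧
      ‖⟪a, vy U a' s'.1.2.1 - vy U a' s.1.2.1⟫_ℂ‖ ≤ δ k := fun k s => by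
    obtain ⟨f', h', r', h1, h2⟩ := D.stage ha ha' s.2 (hδ k)
    exact ⟨⟨(f', h', r'), h1⟩, h2⟩
  choose next hnext using hstep
  let s₀ : S := ⟨(Finsupp.single 0 1, Finsupp.single 0 1, Finsupp.single 0 1), fun A _ => by
    simp [vx, vy, pd, d, X_zero, Y_zero]⟩
  let seq : ℕ → S := fun k => Nat.rec s₀ next k
  have hseq : ∀ k, seq (k + 1) = next k (seq k) := fun k => rfl
  let xs : ℕ → H := fun k => vx U a (seq k).1.1
  let ys : ℕ → H := fun k => vy U a' (seq k).1.2.1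
  have hr : ∀ k, size g (seq (k + 1)).1.2.2 ≤ δ k := fun k => by
    rw [hseq]; exact (hnext k (seq k)).1
  have hδs : ∀ k, δ k + δ (k + 1) ≤ (2 * (1 / 2) ^ k) ^ 2 := fun k => by
    have h14 : ((1 / 4 : ℝ)) ^ k = ((1 / 2) ^ k) ^ 2 := by
      rw [← pow_mul, mul_comm, pow_mul]; norm_num
    have hc1 : c ≤ 1 := min_le_left _ _
    have : δ k + δ (k + 1) = c * (5 / 4) * (1 / 4) ^ k := by simp only [δ, pow_succ]; ring
    rw [this, h14]
    nlinarith [sq_nonneg ((1 / 2 : ℝ) ^ k)]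
  have hdx : ∀ k, dist (xs (k + 1)) (xs (k + 1 + 1)) ≤ 2 * (1 / 2) ^ k := fun k => by
    rw [dist_eq_norm, norm_sub_rev]
    refine le_of_pow_le_pow_left₀ two_ne_zero (by positivity) ?_
    have h := (hnext (k + 1) (seq (k + 1))).2.1
    rw [← hseq] at h
    exact h.trans (by linarith [hr k, hδs k])
  have hdy : ∀ k, dist (ys (k + 1)) (ys (k + 1 + 1)) ≤ 2 * (1 / 2) ^ k := fun k => by
    rw [dist_eq_norm, norm_sub_rev]
    refine le_of_pow_le_pow_left₀ two_ne_zero (by positivity) ?_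
    have h := (hnext (k + 1) (seq (k + 1))).2.2.1
    rw [← hseq] at h
    exact h.trans (by linarith [hr k, hδs k])
  obtain ⟨x, hx⟩ := cauchySeq_tendsto_of_complete
    (cauchySeq_of_le_geometric (f := fun k => xs (k + 1)) (1 / 2) 2 (by norm_num) hdx)
  obtain ⟨y, hy⟩ := cauchySeq_tendsto_of_complete
    (cauchySeq_of_le_geometric (f := fun k => ys (k + 1)) (1 / 2) 2 (by norm_num) hdy)
  -- the limits are not zero
  have hwx : ∀ k, ‖⟪a', xs k⟫_ℂ - ⟪a', a⟫_ℂ‖ ≤ 4 / 3 * c * (1 - (1 / 4) ^ k) := by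
    intro k
    induction k with
    | zero => simp [xs, seq, s₀, vx, X_zero]
    | succ k ih =>
      have h := (hnext k (seq k)).2.2.2.1
      rw [← hseq, inner_sub_right] at h
      calc ‖⟪a', xs (k + 1)⟫_ℂ - ⟪a', a⟫_ℂ‖
          ≤ ‖⟪a', xs (k + 1)⟫_ℂ - ⟪a', xs k⟫_ℂ‖ + ‖⟪a', xs k⟫_ℂ - ⟪a', a⟫_ℂ‖ :=
            norm_sub_le_norm_sub_add_norm_sub _ _ _
        _ ≤ δ k + 4 / 3 * c * (1 - (1 / 4) ^ k) := add_le_add h ih
        _ = 4 / 3 * c * (1 - (1 / 4) ^ (k + 1)) := by simp only [δ, pow_succ]; ring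
  have hwy : ∀ k, ‖⟪a, ys k⟫_ℂ - ⟪a, a'⟫_ℂ‖ ≤ 4 / 3 * c * (1 - (1 / 4) ^ k) := by
    intro k
    induction k with
    | zero => simp [ys, seq, s₀, vy, Y_zero]
    | succ k ih =>
      have h := (hnext k (seq k)).2.2.2.2
      rw [← hseq, inner_sub_right] at h
      calc ‖⟪a, ys (k + 1)⟫_ℂ - ⟪a, a'⟫_ℂ‖
          ≤ ‖⟪a, ys (k + 1)⟫_ℂ - ⟪a, ys k⟫_ℂ‖ + ‖⟪a, ys k⟫_ℂ - ⟪a, a'⟫_ℂ‖ :=
            norm_sub_le_norm_sub_add_norm_sub _ _ _
        _ ≤ δ k + 4 / 3 * c * (1 - (1 / 4) ^ k) := add_le_add h ih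
        _ = 4 / 3 * c * (1 - (1 / 4) ^ (k + 1)) := by simp only [δ, pow_succ]; ring
  have hsmall : ∀ k : ℕ, 4 / 3 * c * (1 - (1 / 4 : ℝ) ^ k) ≤ p / 3 := fun k => by
    have : c ≤ p / 4 := min_le_right _ _
    have h0 : 0 ≤ (1 / 4 : ℝ) ^ k := by positivity
    nlinarith
  have hx0 : x ≠ 0 := by
    rintro rfl
    have h : Tendsto (fun k => ‖⟪a', xs (k + 1)⟫_ℂ - ⟪a', a⟫_ℂ‖) atTop (𝓝 p) := by
      simpa using ((tendsto_const_nhds (x := a')).inner (𝕜 := ℂ) hx |>.sub_const ⟪a', a⟫_ℂ).norm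
    linarith [le_of_tendsto' h fun k => (hwx (k + 1)).trans (hsmall _)]
  have hy0 : y ≠ 0 := by
    rintro rfl
    have h : Tendsto (fun k => ‖⟪a, ys (k + 1)⟫_ℂ - ⟪a, a'⟫_ℂ‖) atTop (𝓝 p) := by
      simpa [p, norm_inner_symm] using
        ((tendsto_const_nhds (x := a)).inner (𝕜 := ℂ) hy |>.sub_const ⟪a, a'⟫_ℂ).norm
    linarith [le_of_tendsto' h fun k => (hwy (k + 1)).trans (hsmall _)]
  -- the whole commutant maps `x` into the orthogonal of `y`
  have horth : ∀ A : H →L[ℂ] H, A * (U : H →L[ℂ] H) = (U : H →L[ℂ] H) * A → ⟪y, A x⟫_ℂ = 0 := by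
    intro A hA
    refine tendsto_nhds_unique (hy.inner (𝕜 := ℂ) ((A.continuous.tendsto x).comp hx)) ?_
    refine squeeze_zero_norm (a := fun k => ‖A‖ * δ k) (fun k => ?_) ?_
    · show ‖⟪ys (k + 1), A (xs (k + 1))⟫_ℂ‖ ≤ _
      rw [(seq (k + 1)).2 A hA]
      exact (D.norm_pd_le hA _).trans (mul_le_mul_of_nonneg_left (hr k) (norm_nonneg _))
    · simpa [δ] using ((tendsto_pow_atTop_nhds_zero_of_lt_one (by norm_num : (0 : ℝ) ≤ 1 / 4)
        (by norm_num)).const_mul c).const_mul ‖A‖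
  let M : Submodule ℂ H :=
    { carrier := {z | ∃ A : H →L[ℂ] H, A * (U : H →L[ℂ] H) = (U : H →L[ℂ] H) * A ∧ A x = z}
      add_mem' := by
        rintro _ _ ⟨A, hA, rfl⟩ ⟨B, hB, rfl⟩
        exact ⟨A + B, by rw [add_mul, mul_add, hA, hB], rfl⟩
      zero_mem' := ⟨0, by simp, rfl⟩
      smul_mem' := by
        rintro s _ ⟨A, hA, rfl⟩
        exact ⟨s • A, by rw [smul_mul_assoc, mul_smul_comm, hA], rfl⟩ }
  refine ⟨M.topologicalClosure, M.isClosed_topologicalClosure, fun h => hx0 ?_, fun h => hy0 ?_,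
    fun A hA z hz => ?_⟩
  · exact (Submodule.mem_bot ℂ).1 (h ▸ M.le_topologicalClosure ⟨1, by simp, rfl⟩)
  · have hle : M.topologicalClosure ≤ (innerSL ℂ y).ker :=
      Submodule.topologicalClosure_minimal _
        (by rintro _ ⟨A, hA, rfl⟩; simpa using horth A hA) (innerSL ℂ y).isClosed_ker
    rw [h] at hle
    simpa using hle (Submodule.mem_top (x := y))
  · refine map_mem_closure A.continuous hz ?_
    rintro _ ⟨B, hB, rfl⟩
    exact ⟨A * B, by rw [mul_assoc, hB, ← mul_assoc, hA, mul_assoc], rfl⟩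

end Vale.Agent.P131.Orbit
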