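import Vale.Agent.P131.Orbit

/-!
# P131: invertible bilateral weighted shifts with small orbit growth
-/

namespace Vale.Agent.P131.Orbit

open scoped InnerProductSpace
open Filter Topology

variable {H : Type*} [NormedAddCommGroup H] [InnerProductSpace ℂ H] [CompleteSpace H]

/-- The essential growth `limsup_{|j| → ∞} W (j + n) / W j` of the `n`-th power. -/
noncomputable def Omega (W : ℤ → ℝ) (n : ℤ) : ℝ :=
  limsup (fun j => W (j + n) / W j) cofinite

variable {W : ℤ → ℝ} (e : HilbertBasis ℤ ℂ H) (hW : ∀ n, 0 < W n) {U : (H →L[ℂ] H)ˣ}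
  (hT : ∀ n, (U : H →L[ℂ] H) (e n) = ((W (n + 1) / W n : ℝ) : ℂ) • e (n + 1))

include hW hT

theorem pw_basis (j n : ℤ) : pw U j (e n) = ((W (n + j) / W n : ℝ) : ℂ) • e (n + j) := by
  have h1 : ∀ x, pw U 1 x = (U : H →L[ℂ] H) x := fun x => by simp [pw]
  induction j using Int.induction_on generalizing n with
  | zero => simp [pw_zero, (hW n).ne']
  | succ i ih =>
    rw [add_comm (i : ℤ) 1, pw_add, ih, map_smul, h1, hT, smul_smul, ← Complex.ofReal_mul]
    congr 2
    · rw [show n + (1 + (i : ℤ)) = n + i + 1 by ring, mul_comm,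
        div_mul_div_cancel₀ (hW _).ne']
    · ring
  | pred i ih =>
    have hinj : Function.Injective (pw U 1) := fun x y h => by
      have := congrArg (pw U (-1)) h
      rwa [← pw_add, ← pw_add, show (-1 : ℤ) + 1 = 0 by norm_num, pw_zero, pw_zero] at this
    apply hinj
    rw [← pw_add, show 1 + (-(i : ℤ) - 1) = -(i : ℤ) by ring, ih, map_smul, h1, hT, smul_smul,
      ← Complex.ofReal_mul]
    congr 2
    · rw [show n + (-(i : ℤ) - 1) + 1 = n + -(i : ℤ) by ring, mul_comm,
        div_mul_div_cancel₀ (hW _).ne']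
    · ring

theorem ratio_le (n i : ℤ) : W (i + n) / W i ≤ ‖pw U n‖ := by
  have h := (pw U n).le_opNorm (e i)
  rw [pw_basis e hW hT, norm_smul, e.orthonormal.1, e.orthonormal.1, mul_one, mul_one,
    Complex.norm_real, Real.norm_of_nonneg (div_nonneg (hW _).le (hW _).le)] at h
  exact h

theorem isBoundedUnder_ratio (n : ℤ) :
    IsBoundedUnder (· ≤ ·) cofinite fun j => W (j + n) / W j :=
  isBoundedUnder_of ⟨_, fun j => ratio_le e hW hT n j⟩

theorem Omega_pos (n : ℤ) : 0 < Omega W n := by
  have hB : 0 < ‖pw U (-n)‖ :=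
    lt_of_lt_of_le (div_pos (hW _) (hW 0)) (ratio_le e hW hT (-n) 0)
  refine lt_of_lt_of_le (inv_pos.2 hB) (le_limsup_of_frequently_le
    (Eventually.frequently (.of_forall fun j => ?_)) (isBoundedUnder_ratio e hW hT n))
  have h := ratio_le e hW hT (-n) (j + n)
  rw [add_neg_cancel_right, ← inv_div] at h
  exact inv_le_of_inv_le₀ (div_pos (hW _) (hW _)) h

theorem Omega_le_mul (n k : ℤ) : Omega W (n + k) ≤ ‖pw U k‖ * Omega W n := by
  rcases (norm_nonneg (pw U k)).eq_or_lt with h | h
  · have := ratio_le e hW hT k 0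
    linarith [div_pos (hW (0 + k)) (hW 0)]
  refine le_of_forall_gt_imp_ge_of_dense fun b hb => ?_
  have hb' : Omega W n < b / ‖pw U k‖ := by rw [lt_div_iff₀ h]; linarith
  refine limsup_le_of_le (isCoboundedUnder_le_of_le cofinite (x := 0)
    fun j => (div_pos (hW _) (hW _)).le) ?_
  filter_upwards [eventually_lt_of_limsup_lt hb' (isBoundedUnder_ratio e hW hT n)] with j hj
  rw [show W (j + (n + k)) / W j = W (j + n + k) / W (j + n) * (W (j + n) / W j) by
    rw [div_mul_div_cancel₀ (hW _).ne', add_assoc]]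
  calc _ ≤ ‖pw U k‖ * (b / ‖pw U k‖) :=
        mul_le_mul (ratio_le e hW hT k _) hj.le (div_pos (hW _) (hW _)).le (norm_nonneg _)
    _ = b := by field_simp

theorem X_eq (j : ℤ) : X U (e 0) j = ((W j / W 0 : ℝ) : ℂ) • e j := by
  rw [X, pw_basis e hW hT, zero_add]

theorem Y_eq (i : ℤ) : Y U (e 0) i = ((W 0 / W i : ℝ) : ℂ) • e i := by
  classical
  apply e.repr.injective
  ext l
  have ho := orthonormal_iff_ite.1 e.orthonormal
  rw [HilbertBasis.repr_apply_apply, HilbertBasis.repr_apply_apply, ← inner_conj_symm,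
    inner_Y_left, pw_basis e hW hT, inner_smul_right, inner_smul_right, ho, ho]
  by_cases h : l = i
  · subst h; simp
  · simp [h, show ¬ (0 : ℤ) = l + -i by omega]

/-- An invertible shift whose orbits of `e 0` grow slower than the essential norms of the powers
satisfies the hypotheses of the criterion. -/
theorem shift_data (h1 : Tendsto (fun j => W j / Omega W j) cofinite (𝓝 0))
    (h2 : Tendsto (fun j => 1 / (W j * Omega W (-j))) cofinite (𝓝 0)) :
    Data U (e 0) (e 0) fun n => 2 / Omega W n := by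
  have hO := Omega_pos e hW hT
  have hz : ∀ z : H, Tendsto (fun j => ‖⟪z, e j⟫_ℂ‖) cofinite (𝓝 0) := fun z => by
    have h := (e.orthonormal.inner_products_summable z).tendsto_cofinite_zero.sqrt
    simp only [Real.sqrt_zero, Real.sqrt_sq (norm_nonneg _)] at h
    exact h.congr fun j => norm_inner_symm _ _
  have hX : ∀ j, ‖X U (e 0) j‖ = W j / W 0 := fun j => by
    rw [X_eq e hW hT, norm_smul, e.orthonormal.1, mul_one, Complex.norm_real,
      Real.norm_of_nonneg (div_pos (hW _) (hW _)).le]
  have hY : ∀ j, ‖Y U (e 0) j‖ = W 0 / W j := fun j => by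
    rw [Y_eq e hW hT, norm_smul, e.orthonormal.1, mul_one, Complex.norm_real,
      Real.norm_of_nonneg (div_pos (hW _) (hW _)).le]
  refine ⟨fun z => (hz z).congr fun j => ?_, fun z => (hz z).congr fun j => ?_, fun n => ?_,
    fun k => ?_, fun k => ?_⟩
  · rw [hX, X_eq e hW hT, inner_smul_right, norm_mul, Complex.norm_real,
      Real.norm_of_nonneg (div_pos (hW _) (hW _)).le,
      mul_div_cancel_left₀ _ (div_pos (hW _) (hW _)).ne']
  · rw [hY, Y_eq e hW hT, inner_smul_right, norm_mul, Complex.norm_real,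
      Real.norm_of_nonneg (div_pos (hW _) (hW _)).le,
      mul_div_cancel_left₀ _ (div_pos (hW _) (hW _)).ne']
  · have h : Omega W n / 2 < Omega W n := by linarith [hO n]
    refine (frequently_lt_of_lt_limsup (isCoboundedUnder_le_of_le cofinite (x := 0)
      fun j => (div_pos (hW _) (hW _)).le) h).mono fun j hj => ?_
    rw [hX, hY, div_mul_div_cancel₀ (hW 0).ne', ← inv_div (W (j + n)), ← inv_div (Omega W n)]
    exact inv_anti₀ (half_pos (hO n)) hj.le
  · have h := h2.const_mul (2 * W 0 * ‖pw U (-k)‖)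
    rw [mul_zero] at h
    refine squeeze_zero (fun j => ?_) (fun j => ?_) h
    · have := hO (k - j); positivity
    · have hle := Omega_le_mul e hW hT (k - j) (-k)
      rw [show k - j + -k = -j by ring] at hle
      rw [hX]
      have := hW j; have := hW 0; have := hO (k - j); have := hO (-j)
      field_simp
      exact hle.trans_eq (mul_comm _ _)
  · have h := h1.const_mul (2 / W 0 * ‖pw U k‖)
    rw [mul_zero] at h
    refine squeeze_zero (fun j => ?_) (fun j => ?_) h
    · have := hO (j - k); positivity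
    · have hle := Omega_le_mul e hW hT (j - k) k
      rw [sub_add_cancel] at hle
      rw [hY]
      have := hW j; have := hW 0; have := hO (j - k); have := hO j
      field_simp
      exact hle.trans_eq (mul_comm _ _)

end Vale.Agent.P131.Orbit
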