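import Vale.Agent.P131.Shift

/-!
# P131: weights satisfying the growth hypothesis (tents between consecutive squares)
-/

namespace Vale.Agent.P131.Orbit

open Filter Topology

/-- The distance from `m` to the nearest square. -/
def tent (m : ℕ) : ℕ :=
  min (m - Nat.sqrt m ^ 2) ((Nat.sqrt m + 1) ^ 2 - m)

theorem tent_le_sqrt (m : ℕ) : tent m ≤ Nat.sqrt m + 1 := by
  have h1 := Nat.sqrt_le' m
  have h2 := Nat.lt_succ_sqrt' m
  simp only [tent, add_sq, Nat.succ_eq_add_one] at *
  omega

theorem tent_succ (m : ℕ) : tent (m + 1) ≤ tent m + 1 ∧ tent m ≤ tent (m + 1) + 1 := by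
  have h1 := Nat.sqrt_le' m
  have h2 := Nat.lt_succ_sqrt' m
  simp only [Nat.succ_eq_add_one] at h2
  rcases Nat.lt_or_ge (m + 1) ((Nat.sqrt m + 1) ^ 2) with h | h
  · have e : Nat.sqrt (m + 1) = Nat.sqrt m := Nat.eq_sqrt'.2 ⟨by omega, h⟩ |>.symm
    simp only [tent, e]
    omega
  · have e : Nat.sqrt (m + 1) = Nat.sqrt m + 1 :=
      Nat.eq_sqrt'.2 ⟨h, by simp only [add_sq] at *; omega⟩ |>.symm
    simp only [tent, e, add_sq] at *
    omega

/-- The weights `2 ^ tent |n|`. -/
noncomputable def tentW (n : ℤ) : ℝ := 2 ^ tent n.natAbs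

theorem tentW_succ (n : ℤ) :
    tentW (n + 1) ≤ 2 * tentW n ∧ tentW n ≤ 2 * tentW (n + 1) := by
  have h : tent (n + 1).natAbs ≤ tent n.natAbs + 1 ∧ tent n.natAbs ≤ tent (n + 1).natAbs + 1 := by
    rcases le_or_gt 0 n with hn | hn
    · rw [show (n + 1).natAbs = n.natAbs + 1 by omega]
      exact tent_succ _
    · rw [show n.natAbs = (n + 1).natAbs + 1 by omega]
      exact (tent_succ _).symm
  simp only [tentW, ← pow_succ']
  exact ⟨pow_le_pow_right₀ one_le_two h.1, pow_le_pow_right₀ one_le_two h.2⟩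

theorem tentW_add (n : ℤ) (k : ℕ) :
    tentW (n + k) ≤ 2 ^ k * tentW n ∧ tentW n ≤ 2 ^ k * tentW (n + k) := by
  induction k with
  | zero => simp
  | succ k ih =>
    obtain ⟨h1, h2⟩ := tentW_succ (n + k)
    have e : n + ((k + 1 : ℕ) : ℤ) = n + k + 1 := by push_cast; ring
    have hp : (0 : ℝ) ≤ 2 ^ k := by positivity
    rw [e, pow_succ]
    constructor
    · nlinarith [ih.1]
    · nlinarith [ih.2]

theorem tent_sq_add (k : ℕ) (n : ℤ) (h : n.natAbs < k) :
    tent (((k : ℤ) ^ 2 + n).natAbs) = n.natAbs := by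
  have hk : (k : ℤ) ^ 2 = ((k ^ 2 : ℕ) : ℤ) := by push_cast; rfl
  have hkk : k ≤ k ^ 2 := Nat.le_self_pow two_ne_zero k
  rcases le_or_gt 0 n with hn | hn
  · have e : ((k : ℤ) ^ 2 + n).natAbs = k ^ 2 + n.natAbs := by rw [hk]; omega
    have es : Nat.sqrt (k ^ 2 + n.natAbs) = k :=
      (Nat.eq_sqrt'.2 ⟨by omega, by simp only [add_sq]; omega⟩).symm
    simp only [tent, e, es, add_sq]
    omega
  · obtain ⟨l, rfl⟩ : ∃ l, k = l + 1 := ⟨k - 1, by omega⟩
    have e : (((l + 1 : ℕ) : ℤ) ^ 2 + n).natAbs = (l + 1) ^ 2 - n.natAbs := by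
      rw [hk]; omega
    have es : Nat.sqrt ((l + 1) ^ 2 - n.natAbs) = l :=
      (Nat.eq_sqrt'.2 ⟨by simp only [add_sq]; omega, by omega⟩).symm
    simp only [tent, e, es]
    simp only [add_sq] at *
    omega

theorem two_pow_le_limsup (n : ℤ) :
    (2 : ℝ) ^ n.natAbs ≤ limsup (fun j => tentW (j + n) / tentW j) cofinite := by
  have hpos : ∀ j, 0 < tentW j := fun j => by unfold tentW; positivity
  refine le_limsup_of_frequently_le ?_ (isBoundedUnder_of ⟨2 ^ n.natAbs, fun j => ?_⟩)
  · refine frequently_cofinite_iff_infinite.2 (Set.infinite_of_forall_exists_gt fun b => ?_)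
    let k := n.natAbs + b.natAbs + 1
    refine ⟨(k : ℤ) ^ 2, ?_, ?_⟩
    · have h0 := tent_sq_add k 0 (by simp [k])
      have h1 := tent_sq_add k n (by omega)
      rw [add_zero, Int.natAbs_zero] at h0
      show (2 : ℝ) ^ n.natAbs ≤ _
      simp only [tentW]
      rw [h0, h1]
      simp
    · have : (k : ℤ) ≤ (k : ℤ) ^ 2 := Int.le_self_sq _
      omega
  · rw [div_le_iff₀ (hpos j)]
    rcases Int.natAbs_eq n with h | h
    · rw [h, Int.natAbs_natCast]; exact (tentW_add j _).1
    · have := (tentW_add (j + n) n.natAbs).2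
      rwa [show j + n + (n.natAbs : ℤ) = j by omega] at this

theorem exists_weights :
    ∃ W : ℤ → ℝ, (∀ n, 0 < W n ∧ W (n + 1) ≤ 2 * W n ∧ W n ≤ 2 * W (n + 1)) ∧
      Tendsto (fun j => W j / limsup (fun i => W (i + j) / W i) cofinite) cofinite (𝓝 0) ∧
      Tendsto (fun j => 1 / (W j * limsup (fun i => W (i + -j) / W i) cofinite)) cofinite
        (𝓝 0) := by
  have hpos : ∀ j, 0 < tentW j := fun j => by unfold tentW; positivity
  have hO : ∀ j, 0 < limsup (fun i => tentW (i + j) / tentW i) cofinite := fun j =>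
    (by positivity : (0 : ℝ) < 2 ^ j.natAbs).trans_le (two_pow_le_limsup j)
  have habs : Tendsto Int.natAbs cofinite atTop := by
    refine tendsto_atTop.2 fun b => (eventually_cofinite).2 ?_
    exact (Set.finite_Icc (-(b : ℤ)) b).subset fun x hx => by
      simp only [Set.mem_ofPred_eq, not_le] at hx; simp only [Set.mem_Icc]; omega
  have hh : Tendsto (fun j : ℤ => ((1 : ℝ) / 2) ^ j.natAbs) cofinite (𝓝 0) :=
    (tendsto_pow_atTop_nhds_zero_of_lt_one (by norm_num) (by norm_num)).comp habs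
  refine ⟨tentW, fun n => ⟨hpos n, tentW_succ n⟩, ?_, ?_⟩
  · have hgap : Tendsto (fun j : ℤ => j.natAbs - tent j.natAbs) cofinite atTop := by
      refine tendsto_atTop.2 fun b => ((tendsto_atTop.1 habs) (2 * b + 6)).mono fun j hj => ?_
      have h1 := Nat.sqrt_le' j.natAbs
      have h2 := tent_le_sqrt j.natAbs
      rcases Nat.lt_or_ge (Nat.sqrt j.natAbs) 2 with h3 | h3
      · omega
      · have : 2 * Nat.sqrt j.natAbs ≤ Nat.sqrt j.natAbs ^ 2 := by
          rw [pow_two]; exact Nat.mul_le_mul_right _ h3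
        omega
    refine squeeze_zero' (Eventually.of_forall fun j => (div_pos (hpos j) (hO j)).le)
      (((tendsto_atTop.1 hgap) 1).mono fun j hj => ?_)
      ((tendsto_pow_atTop_nhds_zero_of_lt_one (by norm_num : (0 : ℝ) ≤ 1 / 2)
        (by norm_num)).comp hgap)
    calc tentW j / _ ≤ tentW j / 2 ^ j.natAbs :=
          div_le_div_of_nonneg_left (hpos j).le (by positivity) (two_pow_le_limsup j)
      _ = _ := by
          simp only [Function.comp_apply, tentW, one_div, inv_pow]
          rw [div_eq_iff (by positivity), inv_mul_eq_div, eq_div_iff (by positivity), ← pow_add]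
          congr 1
          omega
  · refine squeeze_zero (fun j => ?_) (fun j => ?_) hh
    · have := hpos j; have := hO (-j); positivity
    · rw [one_div_pow]
      refine one_div_le_one_div_of_le (by positivity) ?_
      have h := two_pow_le_limsup (-j)
      rw [Int.natAbs_neg] at h
      calc (2 : ℝ) ^ j.natAbs = 1 * 2 ^ j.natAbs := (one_mul _).symm
        _ ≤ tentW j * _ := mul_le_mul (one_le_pow₀ one_le_two) h (by positivity) (hpos j).le

end Vale.Agent.P131.Orbit
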